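import Vale.Agent.N171.Engine

/-! A prescribed singular core: superstability with any margin, dense trial states. -/

open MeasureTheory Filter Topology Set
open scoped ENNReal

namespace Vale.Agent.N171

open Vale.Agent.P171 Vale.Agent.P171.H709

/-- Repulsive part of `ψ`, cut off beyond `3`, with the value `A` at the origin. -/
noncomputable def cr (ψ : ℝ → ℝ) (A ρ : ℝ) : ℝ :=
  if ρ ≤ 0 then A else core3 1 ρ * max (ψ ρ) 0

/-- A function cut off beyond `3`, with the value `0` at the origin. -/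
noncomputable def cut (g : ℝ → ℝ) (ρ : ℝ) : ℝ := if ρ ≤ 0 then 0 else core3 1 ρ * g ρ

theorem measurable_cr {ψ : ℝ → ℝ} (hψ : Measurable ψ) (A : ℝ) : Measurable (cr ψ A) :=
  Measurable.ite measurableSet_Iic measurable_const
    ((measurable_core3 1).mul (hψ.max measurable_const))

theorem measurable_cut {g : ℝ → ℝ} (hg : Measurable g) : Measurable (cut g) :=
  Measurable.ite measurableSet_Iic measurable_const ((measurable_core3 1).mul hg)

theorem cr_nonneg (ψ : ℝ → ℝ) {A : ℝ} (hA : 0 ≤ A) (ρ : ℝ) : 0 ≤ cr ψ A ρ := by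
  unfold cr; split_ifs
  · exact hA
  · exact mul_nonneg (core3_nonneg zero_le_one ρ) (le_max_right _ _)

theorem cut_nonneg {g : ℝ → ℝ} (hg : ∀ ρ, 0 ≤ g ρ) (ρ : ℝ) : 0 ≤ cut g ρ := by
  unfold cut; split_ifs
  · exact le_rfl
  · exact mul_nonneg (core3_nonneg zero_le_one ρ) (hg ρ)

theorem cr_far (ψ : ℝ → ℝ) (A : ℝ) {ρ : ℝ} (h : 3 ≤ ρ) : cr ψ A ρ = 0 := by
  unfold cr; rw [if_neg (by linarith), core3_eq_zero h, zero_mul]

theorem cut_far (g : ℝ → ℝ) {ρ : ℝ} (h : 3 ≤ ρ) : cut g ρ = 0 := by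
  unfold cut; rw [if_neg (by linarith), core3_eq_zero h, zero_mul]

theorem cr_zero (ψ : ℝ → ℝ) (A : ℝ) : cr ψ A 0 = A := by unfold cr; rw [if_pos le_rfl]

theorem cut_zero (g : ℝ → ℝ) : cut g 0 = 0 := by unfold cut; rw [if_pos le_rfl]

theorem cr_mono (ψ : ℝ → ℝ) {A A' : ℝ} (h : A' ≤ A) (ρ : ℝ) : cr ψ A' ρ ≤ cr ψ A ρ := by
  unfold cr; split_ifs
  · exact h
  · exact le_rfl

theorem cut_le {g : ℝ → ℝ} {F : ℝ} (hF : 0 ≤ F) {ρ : ℝ} (hg : 0 < ρ → ρ ≤ 3 → g ρ ≤ F) :
    cut g ρ ≤ F := by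
  rcases le_total 3 ρ with h3 | h3
  · rw [cut_far g h3]; exact hF
  unfold cut; split_ifs with h
  · exact hF
  · have h1 := hg (not_le.mp h) h3
    have h2 := core3_nonneg zero_le_one ρ
    have h4 := core3_le zero_le_one ρ
    nlinarith

/-- A non-integrable core is superstable with every margin. -/
theorem core_super {ψ : ℝ → ℝ}
    (H1 : ∀ K : ℝ, ∃ δ : ℝ, 0 < δ ∧ ∀ ρ, 0 < ρ → ρ < δ → K ≤ ρ ^ 3 * ψ ρ) (K : ℝ) (hK : 0 ≤ K) :
    ∃ A₀ : ℝ, 0 ≤ A₀ ∧ ∀ A, A₀ ≤ A → ∀ {ι : Type} [Fintype ι] (x : ι → E3),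
      K * quad (same 1 0) x ≤ quad (rad (cr ψ A)) x := by
  obtain ⟨δ, hδ, hψ⟩ := H1 (8000 * K)
  obtain ⟨m, hm⟩ := exists_nat_gt (max 1 (2 / δ))
  have hm1 : (1 : ℝ) < m := lt_of_le_of_lt (le_max_left _ _) hm
  have hm0 : (0 : ℝ) < m := by linarith
  have hmδ : 2 / (m : ℝ) < δ := by
    have := lt_of_le_of_lt (le_max_right _ _) hm
    rw [div_lt_iff₀ hδ] at this
    rw [div_lt_iff₀ hm0]; linarith
  have hm1' : 1 < m := by exact_mod_cast hm1
  refine ⟨1000 * K * (m : ℝ) ^ 3, by positivity, fun A hA ι _ x => ?_⟩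
  have hA0 : 0 ≤ A := le_trans (by positivity) hA
  have hn : ∀ i j, ‖(m : ℝ) • x i - (m : ℝ) • x j‖ = m * ‖x i - x j‖ := fun i j => by
    rw [← smul_sub, norm_smul, Real.norm_of_nonneg hm0.le]
  have h1 : quad (same 1 0) x ≤
      quad (fun u v => if ‖u - v‖ < ((2 * m : ℕ) : ℝ) then (1 : ℝ) else 0)
        (fun i => (m : ℝ) • x i) := by
    unfold quad
    refine Finset.sum_le_sum fun i _ => Finset.sum_le_sum fun j _ => ?_
    beta_reduce
    unfold same
    by_cases hb : blk 1 0 (x i) = blk 1 0 (x j)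
    · have h2 := same_one_near hb
      rw [if_pos hb, if_pos]
      rw [hn]; push_cast; nlinarith
    · rw [if_neg hb]; split_ifs <;> norm_num
  have h2 := quad_near_le 1 0 (2 * m) one_pos (by omega) (fun i => (m : ℝ) • x i)
  have h3 : 1000 * K * (m : ℝ) ^ 3 * quad (same 1 0) (fun i => (m : ℝ) • x i) ≤
      quad (rad (cr ψ A)) x := by
    rw [← quad_smul]
    unfold quad
    refine Finset.sum_le_sum fun i _ => Finset.sum_le_sum fun j _ => ?_
    beta_reduce
    unfold same rad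
    by_cases hb : blk 1 0 ((m : ℝ) • x i) = blk 1 0 ((m : ℝ) • x j)
    · have h4 := same_one_near hb
      rw [hn] at h4
      rw [if_pos hb, mul_one]
      unfold cr
      split_ifs with h0
      · exact hA
      · have hρ : 0 < ‖x i - x j‖ := not_le.mp h0
        obtain ⟨ρ, hρe⟩ : ∃ ρ, ρ = ‖x i - x j‖ := ⟨_, rfl⟩
        rw [← hρe] at h4 hρ ⊢
        have h5 : ρ < 2 / m := by rw [lt_div_iff₀ hm0]; linarith
        have h6 := hψ ρ hρ (h5.trans hmδ)
        have h7 : ρ ≤ 2 := by nlinarith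
        rw [core3_eq h7, one_mul]
        refine le_trans ?_ (le_max_left _ _)
        have h8 : ((m : ℝ) * ρ) ^ 3 ≤ 2 ^ 3 := pow_le_pow_left₀ (by positivity) h4.le 3
        have h9 : 0 < ρ ^ 3 := by positivity
        refine le_of_mul_le_mul_left ?_ h9
        have h10 : ρ ^ 3 * (1000 * K * (m : ℝ) ^ 3) = 1000 * K * ((m : ℝ) * ρ) ^ 3 := by ring
        rw [h10]
        have h11 := mul_le_mul_of_nonneg_left h8 (by positivity : 0 ≤ 1000 * K)
        linarith
    · rw [if_neg hb, mul_zero]; exact cr_nonneg ψ hA0 _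
  have e : (5 * ((2 * m : ℕ) : ℝ) / ((1 : ℕ) : ℝ)) ^ 3 = 1000 * (m : ℝ) ^ 3 := by
    push_cast; ring
  rw [e] at h2
  have h4 := mul_le_mul_of_nonneg_left (h1.trans h2) hK
  linarith

theorem quad_short_le {f : ℝ → ℝ} {F : ℝ} (hF : 0 ≤ F) (h1 : ∀ ρ, f ρ ≤ F)
    (h2 : ∀ ρ, 3 ≤ ρ → f ρ = 0) {ι : Type} [Fintype ι] (x : ι → E3) :
    quad (rad f) x ≤ 3375 * F * quad (same 1 0) x := by
  have h3 := quad_near_le 1 0 3 one_pos (by norm_num) x
  have h4 : quad (rad f) x ≤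
      F * quad (fun u v => if ‖u - v‖ < ((3 : ℕ) : ℝ) then (1 : ℝ) else 0) x := by
    rw [← quad_smul]
    refine quad_mono x fun i j => ?_
    unfold rad
    split_ifs with h
    · rw [mul_one]; exact h1 _
    · rw [mul_zero, h2 _ (by exact_mod_cast not_lt.mp h)]
  have e : (5 * ((3 : ℕ) : ℝ) / ((1 : ℕ) : ℝ)) ^ 3 = 3375 := by push_cast; norm_num
  rw [e] at h3
  have h5 := mul_le_mul_of_nonneg_left h3 hF
  linarith

/-- The pressure does not feel the value on the diagonal, in the direction we need. -/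
theorem PW_diag {W W' : E3 → E3 → ℝ} {κ κ' A A' : ℝ} (hκ : 1 ≤ κ) (hW : Nice κ W)
    (hκ' : 1 ≤ κ') (hW' : Nice κ' W') (h1 : ∀ x y, W' x y ≤ W x y)
    (h2 : ∀ x, W' x x - A' ≤ W x x - A) : PW W (A / 2) ≤ PW W' (A' / 2) := by
  refine PW_le_of_pL_le hκ' hW' fun L hL => ?_
  refine pL_mono_of (nice_GX_ne_top hκ' hW' hL _) (nice_GX_ne_top hκ hW hL _) ?_
  refine GX_mono (measurableSet_box L) fun N x _ => ?_
  have h3 : ∑ _i : Fin N, (A - A') ≤ quad (fun u v => W u v - W' u v) x := by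
    unfold quad
    refine Finset.sum_le_sum fun i _ => ?_
    calc A - A' ≤ W (x i) (x i) - W' (x i) (x i) := by linarith [h2 (x i)]
      _ ≤ ∑ j, (W (x i) (x j) - W' (x i) (x j)) :=
        Finset.single_le_sum (f := fun j => W (x i) (x j) - W' (x i) (x j))
          (fun j _ => sub_nonneg.mpr (h1 _ _)) (Finset.mem_univ i)
  rw [quad_sub, Finset.sum_const, Finset.card_univ, Fintype.card_fin, nsmul_eq_mul] at h3
  linarith

/-- Trial state with `n` separated particles in the unit box. -/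
theorem trial (n : ℕ) : ∃ δ c₁ : ℝ, 0 < δ ∧ 0 ≤ c₁ ∧ ∀ {κ A E : ℝ} {W : E3 → E3 → ℝ},
    1 ≤ κ → Nice κ W → 0 ≤ E → (∀ x, W x x ≤ A) → (∀ x y, δ ≤ ‖x - y‖ → W x y ≤ E) →
    ∀ ν : ℝ, (n * ν - (n : ℝ) ^ 2 * E / 2 - c₁) / 64 ≤ PW W (ν + A / 2) := by
  obtain ⟨δ, hδ⟩ : ∃ δ : ℝ, δ = 1 / (2 * ((n : ℝ) + 1)) := ⟨_, rfl⟩
  have hδ0 : 0 < δ := by rw [hδ]; positivity
  set T : Set (Fin n → E3) := {x | (∀ i c, 0 < x i c ∧ x i c < 1) ∧
    ∀ i j, i ≠ j → δ < ‖x i - x j‖} with hT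
  have hTo : IsOpen T := by
    have e : T = (⋂ i, ⋂ c, ({x : Fin n → E3 | 0 < x i c} ∩ {x | x i c < 1})) ∩
        ⋂ i, ⋂ j, ⋂ (_ : i ≠ j), {x : Fin n → E3 | δ < ‖x i - x j‖} := by
      ext x; simp [hT]
    rw [e]
    refine IsOpen.inter ?_ ?_
    · refine isOpen_iInter_of_finite fun i => isOpen_iInter_of_finite fun c => IsOpen.inter ?_ ?_
      · exact isOpen_lt continuous_const (by fun_prop)
      · exact isOpen_lt (by fun_prop) continuous_const
    · refine isOpen_iInter_of_finite fun i => isOpen_iInter_of_finite fun j =>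
        isOpen_iInter_of_finite fun _ => ?_
      exact isOpen_lt continuous_const (by fun_prop)
  have hTn : T.Nonempty := by
    refine ⟨fun i => WithLp.toLp 2 fun _ => ((i : ℕ) + 1 : ℝ) / (n + 1), fun i c => ?_,
      fun i j hij => ?_⟩
    · have hi : ((i : ℕ) : ℝ) + 1 ≤ n := by exact_mod_cast i.2
      simp only
      constructor
      · positivity
      · rw [div_lt_one (by positivity)]; linarith
    · refine lt_of_lt_of_le ?_ (abs_coord_le_norm _ 0)
      have e : ((WithLp.toLp 2 fun _ : Fin 3 => ((i : ℕ) + 1 : ℝ) / (n + 1) : E3) -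
          (WithLp.toLp 2 fun _ : Fin 3 => ((j : ℕ) + 1 : ℝ) / (n + 1) : E3)) 0 =
          (((i : ℕ) : ℝ) - (j : ℕ)) / (n + 1) := by
        simp only [PiLp.sub_apply]
        ring
      rw [e, abs_div, abs_of_pos (by positivity : (0 : ℝ) < n + 1), hδ,
        div_lt_div_iff₀ (by positivity) (by positivity)]
      have h1 : (1 : ℝ) ≤ |((i : ℕ) : ℝ) - (j : ℕ)| := by
        have h2 : ((i : ℕ) : ℤ) - (j : ℕ) ≠ 0 := by
          intro h3
          exact hij (Fin.ext (by omega))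
        have h4 := Int.one_le_abs h2
        exact_mod_cast h4
      have h5 : (0 : ℝ) < n + 1 := by positivity
      nlinarith
  have hsub : T ⊆ {x : Fin n → E3 | ∀ i, x i ∈ box 1} := fun x hx i c =>
    ⟨(hx.1 i c).1.le, (hx.1 i c).2.le⟩
  have hv1 : volume T ≤ 1 := by
    refine (measure_mono hsub).trans ?_
    rw [volume_all, volume_box zero_le_one]; simp
  have hvt : volume T ≠ ⊤ := ne_top_of_le_ne_top ENNReal.one_ne_top hv1
  have hv0 : 0 < (volume T).toReal := ENNReal.toReal_pos (hTo.measure_pos _ hTn).ne' hvt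
  have hv1' : (volume T).toReal ≤ 1 := by
    have := ENNReal.toReal_mono ENNReal.one_ne_top hv1
    simpa using this
  obtain ⟨v, hv⟩ : ∃ v, v = (volume T).toReal := ⟨_, rfl⟩
  rw [← hv] at hv0 hv1'
  have hf : (1 : ℝ) ≤ n.factorial := by exact_mod_cast n.factorial_pos
  refine ⟨δ, Real.log (n.factorial / v), hδ0,
    Real.log_nonneg (by rw [le_div_iff₀ hv0]; linarith), fun {κ A E W} hκ hW hE hA hWE ν => ?_⟩
  obtain ⟨C, hC⟩ : ∃ C, C = n * ν - (n : ℝ) ^ 2 * E / 2 := ⟨_, rfl⟩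
  have h1 : ∀ x ∈ T, ENNReal.ofReal (Real.exp C) ≤ wt W (ν + A / 2) x := by
    intro x hx
    unfold wt
    refine ENNReal.ofReal_le_ofReal (Real.exp_le_exp.2 ?_)
    have h2 : quad W x ≤ ∑ _i : Fin n, (A + n * E) := by
      unfold quad
      refine Finset.sum_le_sum fun i _ => ?_
      calc ∑ j, W (x i) (x j) ≤ ∑ j, ((if i = j then A else 0) + E) := by
            refine Finset.sum_le_sum fun j _ => ?_
            split_ifs with hij
            · subst hij; linarith [hA (x i)]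
            · rw [zero_add]; exact hWE _ _ (hx.2 i j hij).le
        _ = A + n * E := by
            rw [Finset.sum_add_distrib, Finset.sum_ite_eq, if_pos (Finset.mem_univ _)]
            simp
    rw [Finset.sum_const, Finset.card_univ, Fintype.card_fin, nsmul_eq_mul] at h2
    rw [Fintype.card_fin, hC]
    nlinarith
  have h2 : ENNReal.ofReal (Real.exp (C - Real.log (n.factorial / v))) ≤
      GX (box 1) W (ν + A / 2) := by
    unfold GX
    refine le_trans ?_ (ENNReal.le_tsum n)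
    have h3 : ENNReal.ofReal (Real.exp C) * volume T ≤
        ∫⁻ x in {x : Fin n → E3 | ∀ i, x i ∈ box 1}, wt W (ν + A / 2) x := by
      calc ENNReal.ofReal (Real.exp C) * volume T = ∫⁻ _x in T, ENNReal.ofReal (Real.exp C) := by
            rw [setLIntegral_const]
        _ ≤ ∫⁻ x in T, wt W (ν + A / 2) x := setLIntegral_mono' hTo.measurableSet h1
        _ ≤ _ := lintegral_mono_set hsub
    refine le_trans (le_of_eq ?_) (mul_le_mul' le_rfl h3)
    rw [Real.exp_sub, Real.exp_log (by positivity), ← ENNReal.ofReal_toReal hvt, ← hv,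
      ← ENNReal.ofReal_natCast, ← ENNReal.ofReal_inv_of_pos (by positivity),
      ← ENNReal.ofReal_mul (Real.exp_pos _).le, ← ENNReal.ofReal_mul (by positivity)]
    congr 1
    field_simp
  have h4 : C - Real.log (n.factorial / v) ≤ pL W 1 (ν + A / 2) := by
    unfold pL
    rw [← Real.log_exp (C - Real.log (n.factorial / v))]
    apply Real.log_le_log (Real.exp_pos _)
    have := ENNReal.toReal_mono (nice_GX_ne_top hκ hW one_pos _) h2
    rwa [ENNReal.toReal_ofReal (Real.exp_pos _).le] at this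
  refine le_trans ?_ (pL_div_le_PW hκ hW (ν + A / 2) one_pos)
  have h5 : ((1 : ℝ) + 3) ^ 3 = 64 := by norm_num
  rw [h5, ← hC]
  exact div_le_div_of_nonneg_right h4 (by norm_num)

theorem gsum_small {B : ℕ} (hB : 2 ≤ B) (ρ : ℝ) :
    gsum (rr3 B) (al3 B) ρ ≤ (2 ^ 22 + 1) / B := by
  have hB0 : (0 : ℝ) < B := by exact_mod_cast (by omega : 0 < B)
  have h1 : ∀ k, al3 B k * kac (rr3 B k) ρ ≤ al3 B k * (B : ℝ)⁻¹ := by
    intro k
    refine mul_le_mul_of_nonneg_left ?_ (al3_pos hB k).le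
    have h2 := (coef3 hB).rad2 k
    refine (kac_le (by linarith) ρ).trans (inv_anti₀ hB0 ?_)
    have h3 : (B : ℝ) ≤ (bB B k : ℝ) := by exact_mod_cast B_le_bB (by omega) k
    have h4 := two_le_bBr hB k
    have h5 : (bB B k : ℝ) ≤ rr3 B k := by
      unfold rr3
      calc (bB B k : ℝ) = (bB B k : ℝ) ^ 1 := (pow_one _).symm
        _ ≤ _ := pow_le_pow_right₀ (by linarith) (by norm_num)
    calc (B : ℝ) ≤ rr3 B k ^ 1 := by rw [pow_one]; linarith
      _ ≤ rr3 B k ^ 3 := pow_le_pow_right₀ (by linarith) (by norm_num)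
  have h6 := ((coef3 hB).summable ρ).tsum_le_tsum h1 ((summable_al3 hB).mul_right _)
  rw [tsum_mul_right] at h6
  have h7 := mul_le_mul_of_nonneg_right (tsum_al3_le hB) (inv_pos.mpr hB0).le
  unfold gsum
  rw [div_eq_mul_inv]
  linarith

end Vale.Agent.N171
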