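import Vale.Agent.P171.H709.Main

/-! The multi-scale recursion for a general short-range part `κ₀ - f₀`. -/

open MeasureTheory Filter Topology Set

namespace Vale.Agent.N171

open Vale.Agent.P171 Vale.Agent.P171.H709

/-- The recursion with an arbitrary initial error `η₀`. -/
theorem iter_jump' {p : ℕ → ℝ → ℝ} {P : ℝ → ℝ} {α err ε : ℕ → ℝ} {C₀ D τ η₀ : ℝ} {Cb : ℝ → ℝ}
    (hτ0 : 0 < τ) (hτ : τ ≤ 1 / 256)
    (hconv : ∀ k, ConvexOn ℝ Set.univ (p k)) (hmono : ∀ k, Monotone (p k))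
    (hα : ∀ k, 0 < α k) (hgrow : ∀ k, ∃ C, ∀ ν, p k ν ≤ C + ν ^ 2 / (8 * α k))
    (hlow : ∀ k μ y, 0 ≤ y → p k (μ + α k * y) - α k * y ^ 2 / 2 ≤ p (k + 1) μ)
    (hup : ∀ k μ S, |μ| ≤ D → 0 ≤ S →
      (∀ y, 0 ≤ y → p k (μ + α k * y) - α k * y ^ 2 / 2 ≤ S) → p (k + 1) μ ≤ S + err k)
    (h0 : ∀ k ν, 0 ≤ p k ν) (h64 : ∀ k ν, ν / 64 ≤ p k ν) (h00 : p 0 0 ≤ η₀)
    (hC₀ : ∀ k, p k 0 ≤ C₀) (hD : 100 * C₀ ≤ D)
    (hα0 : η₀ < α 0 * (τ * (1 / 2) ^ (0 + 1)) ^ 2 / 2)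
    (herr : ∀ k, err k < α (k + 1) * (τ * (1 / 2 : ℝ) ^ (k + 1 + 1)) ^ 2 / 2)
    (herrlim : Tendsto err atTop (𝓝 0)) (hεlim : Tendsto ε atTop (𝓝 0))
    (hP1 : ∀ k ν, p k ν ≤ P ν) (hP2 : ∀ k ν, P ν ≤ p k ν + ε k * Cb ν) :
    ∃ μ : ℝ, ∀ s, P μ + max (τ * (s - μ)) ((1 / 64 - τ) * (s - μ)) ≤ P s := by
  have hsum : ∀ n : ℕ, ∑ k ∈ Finset.range n, τ * (1 / 2 : ℝ) ^ (k + 1) ≤ τ := by
    intro n
    have h1 : ∑ k ∈ Finset.range n, τ * (1 / 2 : ℝ) ^ (k + 1) =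
        τ * (1 / 2) * ∑ k ∈ Finset.range n, (1 / 2 : ℝ) ^ k := by
      rw [Finset.mul_sum]
      exact Finset.sum_congr rfl fun k _ => by rw [pow_succ]; ring
    have h2 : ∑ k ∈ Finset.range n, (1 / 2 : ℝ) ^ k ≤ 2 := by
      rw [geom_sum_eq (by norm_num)]
      have h3 : (0 : ℝ) ≤ (1 / 2) ^ n := by positivity
      have h4 : ((1 / 2 : ℝ) ^ n - 1) / (1 / 2 - 1) = 2 - 2 * (1 / 2) ^ n := by ring
      linarith
    rw [h1]
    have h3 : τ * (1 / 2) * ∑ k ∈ Finset.range n, (1 / 2 : ℝ) ^ k ≤ τ * (1 / 2) * 2 :=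
      mul_le_mul_of_nonneg_left h2 (by positivity)
    linarith
  have hC₀' : 0 ≤ C₀ := (h0 0 0).trans (hC₀ 0)
  exact H709.iter_kink (p := p) (P := P) (α := α)
    (δ := fun k => τ * (1 / 2 : ℝ) ^ (k + 1)) (η := fun k => Nat.casesOn k η₀ err) (D := D)
    (s₀ := 0) (C₀ := C₀) hτ hconv hmono hα hgrow hlow hup h0 h64 hC₀ (by simpa using hD)
    (fun k => by positivity) hsum
    (fun k => by
      cases k with
      | zero => exact hα0
      | succ k => exact herr k)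
    ((tendsto_add_atTop_iff_nat 1).1 herrlim)
    ⟨by simp; linarith, fun s => by
      show p 0 0 + max (0 * (s - 0)) (1 / 64 * (s - 0)) - η₀ ≤ p 0 s
      have h1 : max (0 * (s - 0)) (1 / 64 * (s - 0)) ≤ p 0 s := by
        refine max_le ?_ ?_
        · simpa using h0 0 s
        · have := h64 0 s
          linarith
      linarith⟩
    (fun s => by
      have h1 : Tendsto (fun k => P s - ε k * Cb s) atTop (𝓝 (P s - 0 * Cb s)) :=
        tendsto_const_nhds.sub (hεlim.mul_const _)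
      rw [zero_mul, sub_zero] at h1
      exact tendsto_of_tendsto_of_tendsto_of_le_of_le h1 tendsto_const_nhds
        (fun k => by have := hP2 k s; simp only; linarith) (fun k => hP1 k s))

/-- A short-range part: repulsion `κ₀`, attraction `f₀`, superstable with margin `K`. -/
structure Short (κ₀ f₀ : ℝ → ℝ) (K : ℝ) : Prop where
  m1 : Measurable κ₀
  m2 : Measurable f₀
  n1 : ∀ ρ, 0 ≤ κ₀ ρ
  n2 : ∀ ρ, 0 ≤ f₀ ρ
  z1 : ∀ ρ, 3 ≤ ρ → κ₀ ρ = 0
  z2 : ∀ ρ, 3 ≤ ρ → f₀ ρ = 0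
  sup : ∀ {ι : Type} [Fintype ι] (x : ι → E3),
    K * quad (same 1 0) x + 2 * quad (rad f₀) x ≤ quad (rad κ₀) x

theorem Short.smul {κ₀ f₀ : ℝ → ℝ} {K β : ℝ} (h : Short κ₀ f₀ K) (hβ : 0 ≤ β) :
    Short (fun ρ => β * κ₀ ρ) (fun ρ => β * f₀ ρ) (β * K) where
  m1 := h.m1.const_mul β
  m2 := h.m2.const_mul β
  n1 := fun ρ => mul_nonneg hβ (h.n1 ρ)
  n2 := fun ρ => mul_nonneg hβ (h.n2 ρ)
  z1 := fun ρ hρ => by rw [h.z1 ρ hρ, mul_zero]
  z2 := fun ρ hρ => by rw [h.z2 ρ hρ, mul_zero]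
  sup := fun x => by
    have e1 : quad (rad fun ρ => β * f₀ ρ) x = β * quad (rad f₀) x := quad_smul β (rad f₀) x
    have e2 : quad (rad fun ρ => β * κ₀ ρ) x = β * quad (rad κ₀) x := quad_smul β (rad κ₀) x
    have := mul_le_mul_of_nonneg_left (h.sup x) hβ
    rw [e1, e2]
    linarith

theorem Short.nice {κ₀ f₀ : ℝ → ℝ} {K κ t : ℝ} (h : Short κ₀ f₀ K) {rr c : ℕ → ℝ}
    (hc : Coef rr c) (hle : 64 * (∑' k, c k) + κ ≤ K) (ht0 : 0 ≤ t) (ht : t ≤ 2) :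
    Nice κ (rad (fun ρ => κ₀ ρ - (t * f₀ ρ + gsum rr c ρ))) where
  meas := by
    have : Measurable (fun ρ => κ₀ ρ - (t * f₀ ρ + gsum rr c ρ)) :=
      h.m1.sub ((h.m2.const_mul t).add (measurable_gsum hc))
    exact this.comp (measurable_fst.sub measurable_snd).norm
  symm := fun x y => by unfold rad; rw [norm_sub_rev]
  trans := fun v x y => by unfold rad; rw [add_sub_add_right_eq_sub]
  far := fun x y hxy => by
    change κ₀ ‖x - y‖ - (t * f₀ ‖x - y‖ + gsum rr c ‖x - y‖) ≤ 0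
    rw [h.z1 _ hxy, h.z2 _ hxy]
    linarith [gsum_nonneg hc ‖x - y‖]
  sup := fun x => by
    have h1 : quad (rad (fun ρ => κ₀ ρ - (t * f₀ ρ + gsum rr c ρ))) x =
        quad (rad κ₀) x - (t * quad (rad f₀) x + quad (rad (gsum rr c)) x) := by
      rw [← quad_smul, ← quad_add, ← quad_sub]; rfl
    have h2 := h.sup x
    have h3 := quad_gsum_le hc x
    have h4 : 0 ≤ quad (same 1 0) x := quad_nonneg x (fun i j => same_nonneg _ _ _ _)
    have h5 := mul_le_mul_of_nonneg_right hle h4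
    have h6 : 0 ≤ quad (rad f₀) x := quad_nonneg x (fun i j => h.n2 _)
    have h7 := mul_le_mul_of_nonneg_right ht h6
    rw [h1]
    linarith

/-- Truncated pair functions. -/
noncomputable def Wk (κ₀ f₀ : ℝ → ℝ) (M : ℝ) (B k : ℕ) : E3 → E3 → ℝ :=
  rad (fun ρ => κ₀ ρ - (f₀ ρ + gsum (rr3 B) (fun j => M * trunc (al3 B) k j) ρ))

/-- The limiting pair function. -/
noncomputable def Wi (κ₀ f₀ : ℝ → ℝ) (M : ℝ) (B : ℕ) : E3 → E3 → ℝ :=
  rad (fun ρ => κ₀ ρ - (f₀ ρ + gsum (rr3 B) (fun j => M * al3 B j) ρ))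

section
variable {κ₀ f₀ : ℝ → ℝ} {M κ : ℝ} {B : ℕ} (hB : 2 ≤ B) (hM : 1 ≤ M)
  (h : Short κ₀ f₀ (κ + 128 * M * (2 ^ 22 + 2)))
include hB hM h

theorem nice_of_le {c : ℕ → ℝ} (hc : Coef (rr3 B) c) (hs : ∑' k, c k ≤ 2 * (2 ^ 22 + 2))
    {t : ℝ} (ht0 : 0 ≤ t) (ht : t ≤ 2) :
    Nice κ (rad (fun ρ => κ₀ ρ - (t * f₀ ρ + gsum (rr3 B) (fun j => M * c j) ρ))) := by
  refine h.nice (hc.smul (by linarith)) ?_ ht0 ht
  rw [tsum_mul_left]
  have := mul_le_mul_of_nonneg_left hs (by linarith : (0 : ℝ) ≤ M)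
  linarith

theorem nice_of_le1 {c : ℕ → ℝ} (hc : Coef (rr3 B) c) (hs : ∑' k, c k ≤ 2 * (2 ^ 22 + 2)) :
    Nice κ (rad (fun ρ => κ₀ ρ - (f₀ ρ + gsum (rr3 B) (fun j => M * c j) ρ))) := by
  have := nice_of_le hB hM h hc hs zero_le_one one_le_two
  simpa only [one_mul] using this

theorem nice_Wi : Nice κ (Wi κ₀ f₀ M B) :=
  nice_of_le1 hB hM h (coef3 hB) (by have := tsum_al3_le hB; linarith)

theorem nice_Wk (k : ℕ) : Nice κ (Wk κ₀ f₀ M B k) :=
  nice_of_le1 hB hM h ((coef3 hB).trunc k) (by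
    have := (tsum_trunc_le (coef3 hB) k).trans (tsum_al3_le hB); linarith)

theorem nice_Wk2 (k : ℕ) : Nice κ (rad (fun ρ => κ₀ ρ -
    2 * (f₀ ρ + gsum (rr3 B) (fun j => M * trunc (al3 B) k j) ρ))) := by
  have h1 := nice_of_le hB hM h (((coef3 hB).trunc k).smul (s := 2) zero_le_two) (by
    rw [tsum_mul_left]
    have := (tsum_trunc_le (coef3 hB) k).trans (tsum_al3_le hB); linarith) zero_le_two le_rfl
  have e : (fun ρ => κ₀ ρ - 2 * (f₀ ρ + gsum (rr3 B) (fun j => M * trunc (al3 B) k j) ρ)) =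
      fun ρ => κ₀ ρ - (2 * f₀ ρ + gsum (rr3 B) (fun j => M * (2 * trunc (al3 B) k j)) ρ) := by
    funext ρ
    rw [gsum_smul, gsum_smul, gsum_smul]
    ring
  rw [e]; exact h1

omit hM h in
theorem Wk_succ (k : ℕ) : Wk κ₀ f₀ M B (k + 1) =
    rad (fun ρ => κ₀ ρ - (f₀ ρ + gsum (rr3 B) (fun j => M * trunc (al3 B) k j) ρ) -
      (M * al3 B k) * kac (rr3 B k) ρ) := by
  unfold Wk
  congr 1
  funext ρ
  rw [gsum_smul, gsum_smul, gsum_trunc_succ (coef3 hB)]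
  ring

omit hM h in
theorem Wk_succ' (k : ℕ) : Wk κ₀ f₀ M B (k + 1) =
    fun x y => Wk κ₀ f₀ M B k x y - (M * al3 B k) * rad (kac (rr3 B k)) x y := by
  rw [Wk_succ hB]; rfl

omit h in
theorem Wi_le_Wk (k : ℕ) (x y : E3) : Wi κ₀ f₀ M B x y ≤ Wk κ₀ f₀ M B k x y := by
  simp only [Wi, Wk, rad]
  rw [gsum_smul, gsum_smul, gsum_split (coef3 hB) k]
  have := mul_nonneg (by linarith : (0 : ℝ) ≤ M) (gsum_nonneg ((coef3 hB).ctail k) ‖x - y‖)
  linarith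

theorem Wk_le (k : ℕ) (x y : E3) : Wk κ₀ f₀ M B k x y ≤ κ₀ ‖x - y‖ := by
  simp only [Wk, rad]
  have h1 := gsum_nonneg (((coef3 hB).trunc k).smul (by linarith : (0 : ℝ) ≤ M)) ‖x - y‖
  have h2 := h.n2 ‖x - y‖
  linarith

/-- error of the truncation -/
theorem PW_Wi_le (hκ : 1 ≤ κ) (K : ℕ) (ν : ℝ) :
    PW (Wi κ₀ f₀ M B) ν ≤ PW (Wk κ₀ f₀ M B K) ν +
      (∑' j, al3 B (j + K)) * (1 + ν ^ 2 / (2 * κ)) := by
  obtain ⟨s, hs⟩ : ∃ s, s = ∑' j, al3 B (j + K) := ⟨_, rfl⟩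
  rw [← hs]
  have hκ0 : 0 < κ := by linarith
  have hg : 0 ≤ 1 + ν ^ 2 / (2 * κ) := by positivity
  have hsum : Summable fun j => al3 B (j + K) := (summable_nat_add_iff K).mpr (summable_al3 hB)
  have hs0 : 0 < s := by
    rw [hs]
    exact hsum.tsum_pos (fun j => (al3_pos hB _).le) 0 (al3_pos hB _)
  have h0 := PW_nonneg hκ (nice_Wk hB hM h K) ν
  by_cases hs1 : 1 ≤ s
  · have h1 := PW_le hκ (nice_Wi hB hM h) ν
    nlinarith
  · have hs1' : s ≤ 1 := (not_le.mp hs1).le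
    have hc : Coef (rr3 B) (fun k => trunc (al3 B) K k + s⁻¹ * ctail (al3 B) K k) :=
      ((coef3 hB).trunc K).add (((coef3 hB).ctail K).smul (inv_nonneg.mpr hs0.le))
    have hct : ∑' k, ctail (al3 B) K k = s := by rw [tsum_ctail (summable_al3 hB), hs]
    have hN := nice_of_le1 hB hM h hc (by
      rw [Summable.tsum_add ((coef3 hB).trunc K).sm (((coef3 hB).ctail K).sm.mul_left _),
        tsum_mul_left, hct, inv_mul_cancel₀ hs0.ne']
      have := (tsum_trunc_le (coef3 hB) K).trans (tsum_al3_le hB)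
      linarith)
    have hW : Wi κ₀ f₀ M B = fun x y => (1 - s) * Wk κ₀ f₀ M B K x y +
        s * rad (fun ρ => κ₀ ρ - (f₀ ρ + gsum (rr3 B)
          (fun j => M * (trunc (al3 B) K j + s⁻¹ * ctail (al3 B) K j)) ρ)) x y := by
      funext x y
      simp only [Wi, Wk, rad]
      rw [gsum_smul, gsum_smul, gsum_smul,
        gsum_add ((coef3 hB).trunc K) (((coef3 hB).ctail K).smul (inv_nonneg.mpr hs0.le)),
        gsum_smul, gsum_split (coef3 hB) K]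
      field_simp
      ring
    have h1 := PW_convex hκ (nice_Wk hB hM h K) hκ hN ν ν hs0.le hs1'
    rw [← hW] at h1
    have e : (1 - s) * ν + s * ν = ν := by ring
    rw [e] at h1
    have h2 := PW_le hκ hN ν
    have h3 := mul_le_mul_of_nonneg_left h2 hs0.le
    have h4 : (1 - s) * PW (Wk κ₀ f₀ M B K) ν ≤ PW (Wk κ₀ f₀ M B K) ν := by nlinarith
    linarith

end

theorem al3_le {B : ℕ} (hB : 2 ≤ B) (k : ℕ) : al3 B k ≤ 2 ^ 22 := by
  unfold al3; split_ifs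
  · exact le_rfl
  · have := two_le_bBr hB k
    have h1 : ((bB B k : ℕ) : ℝ)⁻¹ ≤ 1 := inv_le_one_of_one_le₀ (by linarith)
    norm_num; linarith

/-- One step of the recursion. -/
theorem step_gen {κ₀ f₀ : ℝ → ℝ} {M κ : ℝ} {B : ℕ} (hB4 : 4 ≤ B) (hM : 1 ≤ M)
    (h : Short κ₀ f₀ (κ + 128 * M * (2 ^ 22 + 2))) (hκM : 16 * (M * 2 ^ 22) ≤ κ)
    {A D μ S : ℝ} (hA : 0 ≤ A) (k : ℕ) (hμ : |μ| ≤ D) (hS0 : 0 ≤ S)
    (hS : ∀ y, 0 ≤ y → PW (Wk κ₀ f₀ M B k) (μ + M * al3 B k * y + A / 2) -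
      M * al3 B k * y ^ 2 / 2 ≤ S) :
    PW (Wk κ₀ f₀ M B (k + 1)) (μ + A / 2) ≤
      S + errf (4 * (315 * (1 + (D + A / 2) ^ 2 / κ) + 10)) B k := by
  have hB : 2 ≤ B := by omega
  have hκ : 1 ≤ κ := by nlinarith
  have hb := two_le_bBr hB k
  have hb4' : 4 ≤ bB B k := hB4.trans (B_le_bB (by omega) k)
  have hb4 : (4 : ℝ) ≤ (bB B k : ℝ) := by exact_mod_cast hb4'
  have hal0 := al3_pos hB k
  have hcf : Coef (rr3 B) (fun j => M * trunc (al3 B) k j) :=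
    ((coef3 hB).trunc k).smul (by linarith)
  have hfz : ∀ ρ : ℝ, ((RR3 B k + 3 : ℕ) : ℝ) ≤ ρ →
      f₀ ρ + gsum (rr3 B) (fun j => M * trunc (al3 B) k j) ρ = 0 := by
    intro ρ hρ
    push_cast at hρ
    have h0 : (0 : ℝ) ≤ RR3 B k := Nat.cast_nonneg _
    rw [gsum_smul, gsum3_zero hB k ρ (by linarith), h.z2 ρ (by linarith), mul_zero, add_zero]
  have h8 : 4 ^ 8 ≤ bB B k ^ 8 := Nat.pow_le_pow_left hb4' 8
  have h1 := step3 (κ₀ := κ₀)
    (f := fun ρ => f₀ ρ + gsum (rr3 B) (fun j => M * trunc (al3 B) k j) ρ)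
    (R := RR3 B k + 3) (l := ll3 B k) (α := M * al3 B k) (r := rr3 B k) (κ := κ) (A := A)
    (D := D) (μ := μ) (S := S) h.m1 (h.m2.add (measurable_gsum hcf)) h.n1
    (fun ρ => add_nonneg (h.n2 ρ) (gsum_nonneg hcf ρ)) hfz
    (by
      unfold ll3
      calc 1000 ≤ 4 ^ 12 := by norm_num
        _ ≤ bB B k ^ 12 := Nat.pow_le_pow_left hb4' 12)
    (by
      have h2 : RR3 B k ≤ 2 * bB B k ^ 8 := by
        unfold RR3
        split_ifs
        · exact Nat.zero_le _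
        · exact le_rfl
      unfold ll3
      calc 100 * (RR3 B k + 3) ≤ 4 ^ 4 * bB B k ^ 8 := by omega
        _ ≤ bB B k ^ 4 * bB B k ^ 8 := Nat.mul_le_mul_right _ (Nat.pow_le_pow_left hb4' 4)
        _ = bB B k ^ 12 := by ring)
    (by positivity)
    (by
      have h1 : 1 ≤ al3 B k * (ll3 B k : ℝ) := by
        unfold al3 ll3
        push_cast
        split_ifs
        · have : (1 : ℝ) ≤ (bB B k : ℝ) ^ 12 := one_le_pow₀ (by linarith)
          nlinarith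
        · have e : ((bB B k : ℕ) : ℝ)⁻¹ * (bB B k : ℝ) ^ 12 = (bB B k : ℝ) ^ 11 := by
            field_simp
          rw [e]
          exact one_le_pow₀ (by linarith)
      rw [mul_assoc]
      exact one_le_mul_of_one_le_of_one_le hM h1)
    (by
      unfold ll3 rr3
      push_cast
      have h4 : (200 : ℝ) ≤ (bB B k : ℝ) ^ 4 := by
        calc (200 : ℝ) ≤ 4 ^ 4 := by norm_num
          _ ≤ _ := pow_le_pow_left₀ (by norm_num) hb4 4
      calc 200 * (bB B k : ℝ) ^ 12 ≤ (bB B k : ℝ) ^ 4 * (bB B k : ℝ) ^ 12 :=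
            mul_le_mul_of_nonneg_right h4 (by positivity)
        _ = (bB B k : ℝ) ^ 16 := by ring)
    hκ
    (by
      have h1 := mul_le_mul_of_nonneg_left (al3_le hB k) (by linarith : (0 : ℝ) ≤ M)
      linarith)
    (nice_Wk hB hM h k) (by rw [← Wk_succ hB]; exact nice_Wk hB hM h (k + 1))
    (nice_Wk2 hB hM h k) hμ hA hS0 hS
  rw [← Wk_succ hB] at h1
  refine h1.trans ?_
  have hK : 0 ≤ 315 * (1 + (D + A / 2) ^ 2 / κ) + 10 := by positivity
  have hl : (0 : ℝ) < ll3 B k := by unfold ll3; push_cast; positivity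
  have h2 : (ll3 B k : ℝ) / rr3 B k + ((RR3 B k + 3 : ℕ) : ℝ) / (ll3 B k : ℝ) +
      1 / (ll3 B k : ℝ) ≤ 4 * ((ll3 B k : ℝ) / rr3 B k + (RR3 B k : ℝ) / (ll3 B k : ℝ) +
        1 / (ll3 B k : ℝ)) := by
    have e : ((RR3 B k + 3 : ℕ) : ℝ) / (ll3 B k : ℝ) =
        (RR3 B k : ℝ) / (ll3 B k : ℝ) + 3 * (1 / (ll3 B k : ℝ)) := by
      push_cast; ring
    have p1 : 0 ≤ (ll3 B k : ℝ) / rr3 B k := by unfold rr3; positivity
    have p2 : 0 ≤ (RR3 B k : ℝ) / (ll3 B k : ℝ) := by positivity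
    rw [e]; linarith
  have h3 := mul_le_mul_of_nonneg_left h2 hK
  unfold errf
  linarith

/-- The engine: a kink of the pressure with slopes `n τ` and `n (1/64 - τ)`. -/
theorem jump_gen {κ₀ f₀ : ℝ → ℝ} {M κ A n c C₀ τ : ℝ} {B : ℕ} (hB4 : 4 ≤ B) (hM : 1 ≤ M)
    (h : Short κ₀ f₀ (κ + 128 * M * (2 ^ 22 + 2))) (hκM : 16 * (M * 2 ^ 22) ≤ κ)
    (hA : 0 ≤ A) (hn : 1 ≤ n) (hc : 0 ≤ c) (hτ0 : 0 < τ) (hτ : τ ≤ 1 / 256)
    (htrial : ∀ k ν, n * ν / 64 - c ≤ PW (Wk κ₀ f₀ M B k) (ν + A / 2))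
    (hinit : PW (Wk κ₀ f₀ M B 0) (A / 2) + c < M * 2 ^ 19 * τ ^ 2)
    (hC₀ : 1 + (A / 2) ^ 2 / (2 * κ) + c ≤ C₀)
    (hBK : 512 * (315 * (1 + (100 * C₀ + A / 2) ^ 2 / κ) + 10) < τ ^ 2 * B * M) :
    ∃ μ : ℝ, ∀ s, PW (Wi κ₀ f₀ M B) (μ + A / 2) +
      max (n * τ * (s - μ)) (n * (1 / 64 - τ) * (s - μ)) ≤ PW (Wi κ₀ f₀ M B) (s + A / 2) := by
  have hB : 2 ≤ B := by omega
  have hκ : 1 ≤ κ := by nlinarith
  have hκ0 : 0 < κ := by linarith
  have hn0 : 0 < n := by linarith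
  have hM0 : 0 < M := by linarith
  obtain ⟨K1, hK1⟩ : ∃ K1, K1 = 4 * (315 * (1 + (100 * C₀ + A / 2) ^ 2 / κ) + 10) := ⟨_, rfl⟩
  have hK10 : 0 ≤ K1 := by rw [hK1]; positivity
  have hnn : ∀ k ν, 0 ≤ PW (Wk κ₀ f₀ M B k) ν := fun k ν => PW_nonneg hκ (nice_Wk hB hM h k) ν
  obtain ⟨μ, hμ⟩ := iter_jump' (p := fun k μ => (PW (Wk κ₀ f₀ M B k) (μ + A / 2) + c) / n)
    (P := fun μ => (PW (Wi κ₀ f₀ M B) (μ + A / 2) + c) / n) (α := fun k => n * (M * al3 B k))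
    (err := fun k => errf K1 B k) (ε := fun K => ∑' j, al3 B (j + K)) (C₀ := C₀)
    (D := 100 * C₀) (η₀ := PW (Wk κ₀ f₀ M B 0) (A / 2) + c)
    (Cb := fun ν => (1 + (ν + A / 2) ^ 2 / (2 * κ)) / n) hτ0 hτ
    (fun k => by
      have h1 := ((convex_PW hκ (nice_Wk hB hM h k) (A / 2)).add_const c).smul
        (inv_pos.mpr hn0).le
      refine h1.congr fun μ _ => ?_
      simp only [smul_eq_mul, Pi.add_apply]
      ring)
    (fun k x y hxy => by
      have := PW_mono_nu hκ (nice_Wk hB hM h k) (by linarith : x + A / 2 ≤ y + A / 2)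
      simp only
      gcongr)
    (fun k => by have := al3_pos hB k; positivity)
    (fun k => by
      refine ⟨(1 + (A / 2) ^ 2 / κ + c) / n, fun ν => ?_⟩
      have h0 := PW_le hκ (nice_Wk hB hM h k) (ν + A / 2)
      have hal0 := al3_pos hB k
      have h1 : (ν + A / 2) ^ 2 ≤ 2 * (ν ^ 2 + (A / 2) ^ 2) := by
        nlinarith [sq_nonneg (ν - A / 2)]
      have h2 : (ν + A / 2) ^ 2 / (2 * κ) ≤ ν ^ 2 / κ + (A / 2) ^ 2 / κ := by
        rw [← add_div, div_le_div_iff₀ (by positivity) hκ0]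
        nlinarith
      have h3 : ν ^ 2 / κ ≤ ν ^ 2 / (8 * (M * al3 B k)) := by
        apply div_le_div_of_nonneg_left (sq_nonneg _) (by positivity)
        have h4 := mul_le_mul_of_nonneg_left (al3_le hB k) hM0.le
        nlinarith
      have e : ν ^ 2 / (8 * (n * (M * al3 B k))) = ν ^ 2 / (8 * (M * al3 B k)) / n := by
        field_simp
      rw [e, ← add_div]
      exact div_le_div_of_nonneg_right (by linarith) hn0.le)
    (fun k μ y hy => by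
      have h1 := lower3 hκ hκ (nice_Wk hB hM h k) (mul_pos hM0 (al3_pos hB k)).le
        (by have := (coef3 hB).rad2 k; linarith : 0 < rr3 B k)
        (by rw [← Wk_succ' hB]; exact nice_Wk hB hM h (k + 1)) (μ + A / 2) (n * y)
      rw [← Wk_succ' hB] at h1
      have e : μ + A / 2 + M * al3 B k * (n * y) = μ + n * (M * al3 B k) * y + A / 2 := by ring
      rw [e] at h1
      have e2 : n * (M * al3 B k) * y ^ 2 / 2 = M * al3 B k * (n * y) ^ 2 / 2 / n := by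
        field_simp
      rw [e2, ← sub_div]
      exact div_le_div_of_nonneg_right (by linarith) hn0.le)
    (fun k μ S hμ hS0 hS => by
      have hS' : ∀ y, 0 ≤ y → PW (Wk κ₀ f₀ M B k) (μ + M * al3 B k * y + A / 2) -
          M * al3 B k * y ^ 2 / 2 ≤ n * S - c := by
        intro y hy
        have h1 := hS (y / n) (by positivity)
        have e1 : n * (M * al3 B k) * (y / n) = M * al3 B k * y := by field_simp
        have e2 : n * (M * al3 B k) * (y / n) ^ 2 / 2 = M * al3 B k * y ^ 2 / 2 / n := by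
          field_simp
        rw [e1, e2, ← sub_div, div_le_iff₀ hn0] at h1
        linarith
      have hS0' : 0 ≤ n * S - c := by
        have h1 := hS' 0 le_rfl
        have h2 := hnn k (μ + M * al3 B k * 0 + A / 2)
        linarith
      have h2 := step_gen hB4 hM h hκM hA k hμ hS0' hS'
      rw [← hK1] at h2
      have h3 := errf_nonneg hK10 B k
      rw [div_le_iff₀ hn0]
      nlinarith)
    (fun k ν => by have := hnn k (ν + A / 2); positivity)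
    (fun k ν => by
      have := htrial k ν
      rw [le_div_iff₀ hn0]
      linarith)
    (by
      simp only [zero_add]
      have := hnn 0 (A / 2)
      exact div_le_self (by linarith) hn)
    (fun k => by
      have h1 := PW_le hκ (nice_Wk hB hM h k) (A / 2)
      have h2 := hnn k (A / 2)
      simp only [zero_add]
      exact (div_le_self (by linarith) hn).trans (by linarith))
    le_rfl
    (by
      have e : al3 B 0 = 2 ^ 22 := by unfold al3; simp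
      simp only [e]
      have h1 : M * 2 ^ 19 * τ ^ 2 ≤ n * (M * 2 ^ 19 * τ ^ 2) :=
        le_mul_of_one_le_left (by positivity) hn
      have e2 : n * (M * 2 ^ 22) * (τ * (1 / 2) ^ (0 + 1)) ^ 2 / 2 = n * (M * 2 ^ 19 * τ ^ 2) := by
        ring
      rw [e2]; linarith)
    (fun k => by
      have h1 := errf_lt' (K1 := K1 / M) (by positivity) hB (τ := τ) (by
        rw [mul_div_assoc', div_lt_iff₀ hM0, hK1]; linarith) k
      have e : errf K1 B k = M * errf (K1 / M) B k := by unfold errf; field_simp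
      have h2 := mul_lt_mul_of_pos_left h1 hM0
      have hal0 := al3_pos hB (k + 1)
      have h3 : M * (al3 B (k + 1) * (τ * (1 / 2 : ℝ) ^ (k + 1 + 1)) ^ 2 / 2) ≤
          n * (M * (al3 B (k + 1) * (τ * (1 / 2 : ℝ) ^ (k + 1 + 1)) ^ 2 / 2)) :=
        le_mul_of_one_le_left (by positivity) hn
      have e2 : n * (M * al3 B (k + 1)) * (τ * (1 / 2 : ℝ) ^ (k + 1 + 1)) ^ 2 / 2 =
          n * (M * (al3 B (k + 1) * (τ * (1 / 2 : ℝ) ^ (k + 1 + 1)) ^ 2 / 2)) := by ring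
      rw [e, e2]; linarith)
    (errf_tendsto hK10 hB) (tendsto_sum_nat_add (al3 B))
    (fun k ν => by
      have := PW_mono hκ (nice_Wk hB hM h k) hκ (nice_Wi hB hM h) (Wi_le_Wk hB hM k) (ν + A / 2)
      gcongr)
    (fun k ν => by
      have := PW_Wi_le hB hM h hκ k (ν + A / 2)
      rw [mul_div_assoc', ← add_div]
      exact div_le_div_of_nonneg_right (by linarith) hn0.le)
  refine ⟨μ, fun s => ?_⟩
  have h1 := mul_le_mul_of_nonneg_left (hμ s) hn0.le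
  rw [mul_add, mul_max_of_nonneg _ _ hn0.le, mul_div_cancel₀ _ hn0.ne',
    mul_div_cancel₀ _ hn0.ne', ← mul_assoc, ← mul_assoc] at h1
  linarith

end Vale.Agent.N171
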