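import Vale.Agent.N171.Scaled

/-! Physical units; the Lennard-Jones potential. -/

open MeasureTheory Filter Topology Set

namespace Vale.Agent.N171

open Vale.Agent.P171 Vale.Agent.P171.H709

theorem stable_scale {φ : ℝ → ℝ} (h : Stable φ) {c l : ℝ} (hc : 0 ≤ c) (hl : 0 < l) :
    Stable (fun r => c * φ (r / l)) := by
  obtain ⟨S, hS⟩ := h
  refine ⟨c * S, fun N x hx => ?_⟩
  rw [energy_scale φ c hl]
  have hinj : Function.Injective (l⁻¹ • x) := by
    intro i j hij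
    apply hx
    rw [Pi.smul_apply, Pi.smul_apply] at hij
    exact smul_right_injective E3 (inv_pos.mpr hl).ne' hij
  have h1 := mul_le_mul_of_nonneg_left (hS N _ hinj) hc
  linarith

theorem main_core {ψ : ℝ → ℝ} (hψ : IsPotential ψ)
    (h0 : Tendsto (fun r => r ^ 3 * ψ r) (𝓝[>] 0) atTop) (hinf : Tendsto ψ atTop (𝓝 0))
    (R b : ℝ) {η β₀ a : ℝ} (hη : 0 < η) (hβ₀ : 0 < β₀) (ha : 0 < a) :
    ∃ φ : ℝ → ℝ, (∀ r, 0 < r → r ≤ R → φ r = ψ r) ∧ (∀ r, 0 < r → |φ r - ψ r| ≤ η) ∧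
      (ContinuousOn ψ (Ioi 0) → ContinuousOn φ (Ioi 0)) ∧
      (∃ C ε R₀ : ℝ, 0 < ε ∧ 0 < R₀ ∧ ∀ r, R₀ ≤ r → -(C * r ^ (-(3 + ε))) ≤ φ r ∧ φ r ≤ 0) ∧
      IsPotential φ ∧ Stable φ ∧ Tempered φ ∧ ∀ β, β₀ ≤ β → DensityJump φ β a b := by
  -- the length scale
  obtain ⟨R', hR'⟩ : ∃ R' : ℝ, ∀ r, R' ≤ r → |ψ r| ≤ η / 2 := by
    have h1 := (Metric.tendsto_nhds.1 hinf) (η / 2) (by positivity)
    obtain ⟨R', h2⟩ := eventually_atTop.1 h1
    exact ⟨R', fun r hr => by have := h2 r hr; rw [Real.dist_eq, sub_zero] at this; exact this.le⟩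
  obtain ⟨l, hl⟩ : ∃ l : ℝ, l = max 1 (max R R') := ⟨_, rfl⟩
  have hl1 : 1 ≤ l := by rw [hl]; exact le_max_left _ _
  have hl0 : 0 < l := by linarith
  have hlR : R ≤ l := by rw [hl]; exact (le_max_left _ _).trans (le_max_right _ _)
  have hlR' : R' ≤ l := by rw [hl]; exact (le_max_right _ _).trans (le_max_right _ _)
  have hl3 : 0 < l ^ 3 := by positivity
  -- a measurable version
  obtain ⟨ψ', hψ'⟩ : ∃ ψ' : ℝ → ℝ, ψ' = fun r => if 0 < r then ψ r else 0 := ⟨_, rfl⟩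
  have hψe : ∀ r, 0 < r → ψ' r = ψ r := fun r hr => by rw [hψ']; exact if_pos hr
  have hψm : Measurable ψ' := by
    refine measurable_of_restrict_of_restrict_compl (s := Ioi 0) measurableSet_Ioi ?_ ?_
    · have e : (Ioi (0 : ℝ)).domRestrict ψ' = fun r : Ioi (0 : ℝ) => ψ r := by
        funext r; exact hψe r r.2
      rw [e]; exact hψ.1
    · have e : (Ioi (0 : ℝ))ᶜ.domRestrict ψ' = fun _ => 0 := by
        funext r
        rw [hψ']
        exact if_neg r.2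
      rw [e]; exact measurable_const
  obtain ⟨φ₁, g, hφm, hgc, hg, ⟨C, hC, hdec⟩, hφ₁, hst, hj⟩ :=
    scaled_main (ψ := fun ρ => β₀ * ψ' (l * ρ)) (η := β₀ * (η / 2)) (a := l ^ 3 * a)
      ((hψm.comp (measurable_id.const_mul l)).const_mul β₀)
      (fun K => by
        have h1 := h0.eventually_ge_atTop (K * l ^ 3 / β₀)
        obtain ⟨u, hu, h2⟩ := (mem_nhdsGT_iff_exists_Ioo_subset).1 h1
        have hu0 : (0 : ℝ) < u := hu
        refine ⟨u / l, by positivity, fun ρ hρ hρu => ?_⟩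
        have h3 : 0 < l * ρ := by positivity
        have h4 : l * ρ < u := by rw [lt_div_iff₀ hl0] at hρu; linarith
        have h5 : K * l ^ 3 / β₀ ≤ (l * ρ) ^ 3 * ψ (l * ρ) := h2 ⟨h3, h4⟩
        rw [div_le_iff₀ hβ₀] at h5
        rw [hψe _ h3]
        refine le_of_mul_le_mul_right ?_ hl3
        calc K * l ^ 3 ≤ _ := h5
          _ = _ := by ring)
      (fun δ hδ => by
        obtain ⟨M, hM⟩ := hψ.2 (l * δ) (l * 3) (by positivity)
        refine ⟨β₀ * M, fun ρ h1 h2 => ?_⟩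
        have h3 : 0 < l * ρ := mul_pos hl0 (by linarith)
        rw [hψe _ h3, abs_mul, abs_of_pos hβ₀]
        exact mul_le_mul_of_nonneg_left (hM _ (mul_le_mul_of_nonneg_left h1 hl0.le)
          (mul_le_mul_of_nonneg_left h2 hl0.le)) hβ₀.le)
      (l ^ 3 * b) (by positivity) (by positivity)
  obtain ⟨φ, hφ⟩ : ∃ φ : ℝ → ℝ, φ = fun r => β₀⁻¹ * φ₁ (r / l) := ⟨_, rfl⟩
  have hform : ∀ r, 0 < r →
      φ r = core3 1 (r / l) * ψ r - (1 - core3 1 (r / l)) * (β₀⁻¹ * g (r / l)) := by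
    intro r hr
    rw [hφ]
    simp only
    rw [hφ₁ _ (by positivity), mul_div_cancel₀ _ hl0.ne', hψe r hr]
    field_simp
  have hgb : ∀ ρ, 0 ≤ β₀⁻¹ * g ρ ∧ β₀⁻¹ * g ρ ≤ η / 2 := fun ρ =>
    ⟨mul_nonneg (by positivity) (hg ρ).1, by
      rw [inv_mul_le_iff₀ hβ₀]; exact (hg ρ).2⟩
  have hin : ∀ r, 0 < r → r ≤ 2 * l → φ r = ψ r := by
    intro r hr h2
    rw [hform r hr, core3_eq (by rw [div_le_iff₀ hl0]; exact h2)]
    ring
  have hclose : ∀ r, 0 < r → |φ r - ψ r| ≤ η := by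
    intro r hr
    rcases le_total r (2 * l) with h | h
    · rw [hin r hr h, sub_self, abs_zero]; exact hη.le
    · have h1 := hR' r (by linarith)
      have h2 := hgb (r / l)
      have h3 := core3_nonneg zero_le_one (r / l)
      have h4 := core3_le zero_le_one (r / l)
      have e : φ r - ψ r = -((1 - core3 1 (r / l)) * (ψ r + β₀⁻¹ * g (r / l))) := by
        rw [hform r hr]; ring
      rw [e, abs_neg, abs_mul, abs_of_nonneg (by linarith : 0 ≤ 1 - core3 1 (r / l))]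
      have h5 : |ψ r + β₀⁻¹ * g (r / l)| ≤ η := by
        refine (abs_add_le _ _).trans ?_
        rw [abs_of_nonneg h2.1]; linarith [h2.2]
      calc (1 - core3 1 (r / l)) * |ψ r + β₀⁻¹ * g (r / l)| ≤ 1 * η :=
            mul_le_mul (by linarith) h5 (abs_nonneg _) zero_le_one
        _ = η := one_mul _
  have hout : ∀ r, 3 * l ≤ r → φ r = -(β₀⁻¹ * g (r / l)) := by
    intro r hr
    rw [hform r (by linarith), core3_eq_zero (by rw [le_div_iff₀ hl0]; exact hr)]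
    ring
  refine ⟨φ, fun r hr h => hin r hr (by linarith), hclose, fun hc => ?_, ?_, ⟨?_, ?_⟩, ?_, ?_, ?_⟩
  · have h1 : Continuous fun r : ℝ => core3 1 (r / l) :=
      (continuous_core3 1).comp (continuous_id.div_const l)
    have h2 : Continuous fun r : ℝ => β₀⁻¹ * g (r / l) :=
      continuous_const.mul (hgc.comp (continuous_id.div_const l))
    exact ((h1.continuousOn.mul hc).sub
      ((continuous_const.sub h1).mul h2).continuousOn).congr fun r hr => hform r hr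
  · refine ⟨β₀⁻¹ * (C * l ^ dexp), 1 / 32, 3 * l, by norm_num, by positivity, fun r hr => ?_⟩
    have hr0 : 0 < r := by linarith
    rw [hout r hr]
    refine ⟨neg_le_neg ?_, neg_nonpos.mpr (hgb _).1⟩
    have hd : (-(3 + 1 / 32) : ℝ) = -dexp := by unfold dexp; norm_num
    have h1 := hdec (r / l) (by positivity)
    have h2 : (r / l) ^ (-dexp) = r ^ (-dexp) * l ^ dexp := by
      rw [Real.div_rpow hr0.le hl0.le, Real.rpow_neg hl0.le, div_inv_eq_mul]
    rw [h2] at h1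
    rw [hd]
    calc β₀⁻¹ * g (r / l) ≤ β₀⁻¹ * (C * (r ^ (-dexp) * l ^ dexp)) :=
          mul_le_mul_of_nonneg_left h1 (by positivity)
      _ = _ := by ring
  · have : Measurable φ := by
      rw [hφ]; exact (hφm.comp (measurable_id.div_const l)).const_mul _
    exact this.comp measurable_subtype_coe
  · intro u v hu
    obtain ⟨M, hM⟩ := hψ.2 u v hu
    refine ⟨M + η, fun r h1 h2 => ?_⟩
    have h3 := hclose r (by linarith)
    have h4 := hM r h1 h2
    have h5 := abs_add_le (φ r - ψ r) (ψ r)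
    rw [sub_add_cancel] at h5
    linarith
  · rw [hφ]; exact stable_scale hst (by positivity) hl0
  · refine ⟨1, 1, 3 * l, one_pos, one_pos, by positivity, fun r hr => ?_⟩
    rw [hout r hr, one_mul]
    exact (neg_nonpos.mpr (hgb _).1).trans (Real.rpow_nonneg (by linarith) _)
  · intro β hβ
    have h1 : 1 ≤ β * β₀⁻¹ := by rw [← div_eq_mul_inv, le_div_iff₀ hβ₀]; linarith
    have h2 := densityJump_scale (c := β₀⁻¹) hl0 (hj _ h1)
    rw [← hφ, mul_div_cancel_left₀ _ hl3.ne', mul_div_cancel_left₀ _ hl3.ne'] at h2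
    exact h2

theorem lj_continuousOn : ContinuousOn (fun r : ℝ => 4 * (r⁻¹ ^ 12 - r⁻¹ ^ 6)) (Ioi 0) := by
  have h : ContinuousOn (fun r : ℝ => r⁻¹) (Ioi 0) :=
    continuousOn_inv₀.mono fun r hr => ne_of_gt hr
  exact continuousOn_const.mul ((h.pow 12).sub (h.pow 6))

theorem lj_potential : IsPotential (fun r : ℝ => 4 * (r⁻¹ ^ 12 - r⁻¹ ^ 6)) := by
  refine ⟨?_, fun u v hu => ?_⟩
  · have : Measurable (fun r : ℝ => 4 * (r⁻¹ ^ 12 - r⁻¹ ^ 6)) := by fun_prop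
    exact this.comp measurable_subtype_coe
  · obtain ⟨M, hM⟩ := (isCompact_Icc (a := u) (b := v)).exists_bound_of_continuousOn
      (lj_continuousOn.mono fun r hr => lt_of_lt_of_le hu hr.1)
    exact ⟨M, fun r h1 h2 => hM r ⟨h1, h2⟩⟩

theorem lj_zero : Tendsto (fun r : ℝ => r ^ 3 * (4 * (r⁻¹ ^ 12 - r⁻¹ ^ 6))) (𝓝[>] 0) atTop := by
  refine tendsto_atTop_mono' _ ?_ tendsto_inv_nhdsGT_zero
  filter_upwards [Ioo_mem_nhdsGT (by norm_num : (0 : ℝ) < 1 / 2)] with r hr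
  obtain ⟨u, hu⟩ : ∃ u, u = r⁻¹ := ⟨_, rfl⟩
  have hr0 : 0 < r := hr.1
  have hu2 : 2 ≤ u := by
    rw [hu, le_inv_comm₀ (by norm_num) hr0]
    have := hr.2
    linarith
  have e : r ^ 3 * (4 * (r⁻¹ ^ 12 - r⁻¹ ^ 6)) = u * (4 * u ^ 2 * (u ^ 6 - 1)) := by
    rw [hu]; field_simp
  rw [e, ← hu]
  have h1 : 2 ^ 6 ≤ u ^ 6 := pow_le_pow_left₀ (by norm_num) hu2 6
  have h2 : 2 ^ 2 ≤ u ^ 2 := pow_le_pow_left₀ (by norm_num) hu2 2
  refine le_mul_of_one_le_right (by linarith) ?_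
  nlinarith

theorem lj_inf : Tendsto (fun r : ℝ => 4 * (r⁻¹ ^ 12 - r⁻¹ ^ 6)) atTop (𝓝 0) := by
  have h : Tendsto (fun r : ℝ => r⁻¹) atTop (𝓝 0) := tendsto_inv_atTop_zero
  have h1 := ((h.pow 12).sub (h.pow 6)).const_mul 4
  simpa using h1

end Vale.Agent.N171
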