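import Vale.Agent.N171.Core

/-! The construction in the units where the prescribed core has range two. -/

open MeasureTheory Filter Topology Set

namespace Vale.Agent.N171

open Vale.Agent.P171 Vale.Agent.P171.H709

theorem densityJump_mono {φ : ℝ → ℝ} {β a b a' b' : ℝ} (h : DensityJump φ β a b) (ha : a ≤ a')
    (hb : b' ≤ b) : DensityJump φ β a' b' := by
  obtain ⟨Pi, hPi, z, dl, dr, hz, hdl, hdr, hda, hdb⟩ := h
  exact ⟨Pi, hPi, z, dl, dr, hz, hdl, hdr, hda.trans ha, hb.trans hdb⟩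

/-- The transition at every `β ≥ 1`. -/
theorem beta_jump {κ₀ κ₁ f₀ : ℝ → ℝ} {M κ A A' E c c₁ C₀ Kb τ δ : ℝ} {B n : ℕ} (hB4 : 4 ≤ B)
    (hM1 : 1 ≤ M) (hSh : Short κ₀ f₀ (κ + 128 * M * (2 ^ 22 + 2))) (hκ : κ = 16 * (M * 2 ^ 22))
    (hS1 : Short κ₁ f₀ 1) (hk1 : ∀ ρ, κ₁ ρ ≤ κ₀ ρ) (hk0 : κ₀ 0 = A) (hk0' : κ₁ 0 = A')
    (hf0 : f₀ 0 = 0) (hA0 : 0 ≤ A) (hn1 : (1 : ℝ) ≤ n) (hτ0 : 0 < τ) (hτ1 : τ ≤ 1 / 256)
    (hE0 : 0 ≤ E) (hc₁ : 0 ≤ c₁) (hkE : ∀ ρ, δ ≤ ρ → κ₀ ρ ≤ E)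
    (htr : ∀ {κ A E : ℝ} {W : E3 → E3 → ℝ},
      1 ≤ κ → Nice κ W → 0 ≤ E → (∀ x, W x x ≤ A) → (∀ x y, δ ≤ ‖x - y‖ → W x y ≤ E) →
      ∀ ν : ℝ, (n * ν - (n : ℝ) ^ 2 * E / 2 - c₁) / 64 ≤ PW W (ν + A / 2))
    (hc : c = ((n : ℝ) ^ 2 * E / 2 + c₁) / 64)
    (hMi : 1 + A' ^ 2 / 8 + c < M * 2 ^ 19 * τ ^ 2)
    (hC₀ : C₀ = 1 + (A / 2) ^ 2 / (2 * κ) + c)
    (hKb : Kb = 315 * (1 + (100 * C₀ + A / 2) ^ 2 / κ) + 10) (hBK : 512 * Kb < τ ^ 2 * B)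
    {β : ℝ} (hβ : 1 ≤ β) :
    DensityJump (fun r => κ₀ r - (f₀ r + gsum (rr3 B) (fun j => M * al3 B j) r)) β (n * τ)
      (n * (1 / 64 - τ)) := by
  have hB : 2 ≤ B := by omega
  have hB0 : (0 : ℝ) < B := by exact_mod_cast (by omega : 0 < B)
  have hβ0 : 0 < β := by linarith
  have hκ1 : 1 ≤ κ := by rw [hκ]; linarith
  have hκ0 : 0 < κ := by linarith
  have hc0 : 0 ≤ c := by rw [hc]; positivity
  have hSβ : Short (fun ρ => β * κ₀ ρ) (fun ρ => β * f₀ ρ)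
      (β * κ + 128 * (β * M) * (2 ^ 22 + 2)) := by
    have h1 := hSh.smul hβ0.le
    have e : β * (κ + 128 * M * (2 ^ 22 + 2)) = β * κ + 128 * (β * M) * (2 ^ 22 + 2) := by ring
    rwa [e] at h1
  have hβM : 1 ≤ β * M := one_le_mul_of_one_le_of_one_le hβ hM1
  have hβκ : 1 ≤ β * κ := one_le_mul_of_one_le_of_one_le hβ hκ1
  have t1 : ∀ k ν, n * ν / 64 - β * c ≤
      PW (Wk (fun ρ => β * κ₀ ρ) (fun ρ => β * f₀ ρ) (β * M) B k) (ν + β * A / 2) := by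
    intro k ν
    have h1 := htr (A := β * A) (E := β * E) hβκ (nice_Wk hB hβM hSβ k) (by positivity)
      (fun x => by
        have h2 := Wk_le hB hβM hSβ k x x
        rwa [sub_self, norm_zero, hk0] at h2)
      (fun x y hxy => (Wk_le hB hβM hSβ k x y).trans
        (mul_le_mul_of_nonneg_left (hkE _ hxy) hβ0.le)) ν
    refine le_trans ?_ h1
    have h3 : c₁ ≤ β * c₁ := le_mul_of_one_le_left hc₁ hβ
    have e : β * c = ((n : ℝ) ^ 2 * (β * E) / 2 + β * c₁) / 64 := by rw [hc]; ring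
    rw [e]
    linarith
  have t2 : PW (Wk (fun ρ => β * κ₀ ρ) (fun ρ => β * f₀ ρ) (β * M) B 0) (β * A / 2) + β * c <
      β * M * 2 ^ 19 * τ ^ 2 := by
    have hc0' : Coef (rr3 B) (fun _ => 0) := ⟨fun _ => le_rfl, summable_zero, (coef3 hB).rad2⟩
    have hN' := (hS1.smul hβ0.le).nice (κ := β) (t := 1) hc0' (by simp) zero_le_one one_le_two
    have h5 : ∀ ρ, gsum (rr3 B) (fun _ => 0) ρ = 0 := fun ρ => by unfold gsum; simp
    have h1 := PW_diag (A := β * A) (A' := β * A') hβκ (nice_Wk hB hβM hSβ 0) hβ hN'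
      (fun x y => by
        simp only [Wk, rad]
        rw [gsum_smul, gsum_trunc_zero, h5]
        have h2 := mul_le_mul_of_nonneg_left (hk1 ‖x - y‖) hβ0.le
        linarith)
      (fun x => by
        simp only [Wk, rad]
        rw [sub_self, norm_zero, gsum_smul, gsum_trunc_zero, hk0, hf0, hk0', h5]
        linarith)
    have h2 := PW_le hβ hN' (β * A' / 2)
    have e : (β * A' / 2) ^ 2 / (2 * β) = β * (A' ^ 2 / 8) := by field_simp; ring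
    rw [e] at h2
    have h3 := mul_lt_mul_of_pos_left hMi hβ0
    linarith
  have t3 : 1 + (β * A / 2) ^ 2 / (2 * (β * κ)) + β * c ≤ β * C₀ := by
    have e : (β * A / 2) ^ 2 / (2 * (β * κ)) = β * ((A / 2) ^ 2 / (2 * κ)) := by field_simp
    rw [e, hC₀]
    linarith
  have t4 : 512 * (315 * (1 + (100 * (β * C₀) + β * A / 2) ^ 2 / (β * κ)) + 10) <
      τ ^ 2 * B * (β * M) := by
    have e : (100 * (β * C₀) + β * A / 2) ^ 2 / (β * κ) =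
        β * ((100 * C₀ + A / 2) ^ 2 / κ) := by field_simp
    rw [e]
    have h1 : 315 * (1 + β * ((100 * C₀ + A / 2) ^ 2 / κ)) + 10 ≤ β * Kb := by
      rw [hKb]; linarith
    have h2 := mul_lt_mul_of_pos_left hBK hβ0
    have h3 : β * (τ ^ 2 * B) ≤ β * (τ ^ 2 * B) * M :=
      le_mul_of_one_le_right (by positivity) hM1
    linarith
  obtain ⟨μ, hμ⟩ := jump_gen hB4 hβM hSβ (by rw [hκ]; exact le_of_eq (by ring))
    (by positivity) hn1 (by positivity) hτ0 hτ1 t1 t2 t3 t4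
  have e : Wi (fun ρ => β * κ₀ ρ) (fun ρ => β * f₀ ρ) (β * M) B =
      rad (fun r => β * (κ₀ r - (f₀ r + gsum (rr3 B) (fun j => M * al3 B j) r))) := by
    unfold Wi
    congr 1
    funext ρ
    rw [gsum_smul, gsum_smul]
    ring
  have hN := nice_Wi hB hβM hSβ
  rw [e] at hμ hN
  exact densityJump_of_kink
    (φ := fun r => κ₀ r - (f₀ r + gsum (rr3 B) (fun j => M * al3 B j) r)) hβκ (c := β * A / 2)
    (μ := μ) hN hμ

theorem scaled_main {ψ : ℝ → ℝ} (hm : Measurable ψ)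
    (H1 : ∀ K : ℝ, ∃ δ : ℝ, 0 < δ ∧ ∀ ρ, 0 < ρ → ρ < δ → K ≤ ρ ^ 3 * ψ ρ)
    (H2 : ∀ δ : ℝ, 0 < δ → ∃ F : ℝ, ∀ ρ, δ ≤ ρ → ρ ≤ 3 → |ψ ρ| ≤ F)
    {η a : ℝ} (b : ℝ) (hη : 0 < η) (ha : 0 < a) :
    ∃ φ g : ℝ → ℝ, Measurable φ ∧ Continuous g ∧ (∀ ρ, 0 ≤ g ρ ∧ g ρ ≤ η) ∧
      (∃ C : ℝ, 0 < C ∧ ∀ ρ, 0 < ρ → g ρ ≤ C * ρ ^ (-dexp)) ∧
      (∀ ρ, 0 < ρ → φ ρ = core3 1 ρ * ψ ρ - (1 - core3 1 ρ) * g ρ) ∧ Stable φ ∧
      ∀ β : ℝ, 1 ≤ β → DensityJump φ β a b := by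
  -- densities
  obtain ⟨n, hn⟩ := exists_nat_gt (max 1 (256 * b / 3))
  have hn1 : (1 : ℝ) ≤ n := (lt_of_le_of_lt (le_max_left _ _) hn).le
  have hn0 : (0 : ℝ) < n := by linarith
  have hnb : b ≤ n * (3 / 256) := by
    have := lt_of_le_of_lt (le_max_right _ _) hn
    linarith
  obtain ⟨τ, hτ⟩ : ∃ τ : ℝ, τ = min (1 / 256) (a / n) := ⟨_, rfl⟩
  have hτ0 : 0 < τ := by rw [hτ]; positivity
  have hτ1 : τ ≤ 1 / 256 := by rw [hτ]; exact min_le_left _ _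
  have hτ2 : n * τ ≤ a := by
    have : τ ≤ a / n := by rw [hτ]; exact min_le_right _ _
    rw [le_div_iff₀ hn0] at this
    linarith
  -- trial state
  obtain ⟨δ, c₁, hδ, hc₁, htr⟩ := trial n
  obtain ⟨E₁, hE₁⟩ := H2 δ hδ
  obtain ⟨E, hE⟩ : ∃ E, E = |E₁| + η := ⟨_, rfl⟩
  have hE0 : 0 ≤ E := by rw [hE]; positivity
  obtain ⟨c, hc⟩ : ∃ c, c = ((n : ℝ) ^ 2 * E / 2 + c₁) / 64 := ⟨_, rfl⟩
  have hc0 : 0 ≤ c := by rw [hc]; positivity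
  -- attractive part
  obtain ⟨δ₀, hδ₀, hpos⟩ := H1 0
  obtain ⟨F₁, hF₁⟩ := H2 δ₀ hδ₀
  obtain ⟨F, hF⟩ : ∃ F, F = |F₁| := ⟨_, rfl⟩
  have hF0 : 0 ≤ F := by rw [hF]; positivity
  obtain ⟨f₀, hf₀⟩ : ∃ f₀, f₀ = cut (fun ρ => max (-ψ ρ) 0) := ⟨_, rfl⟩
  have hfm : Measurable f₀ := by rw [hf₀]; exact measurable_cut (hm.neg.max measurable_const)
  have hfn : ∀ ρ, 0 ≤ f₀ ρ := by rw [hf₀]; exact cut_nonneg fun ρ => le_max_right _ _
  have hfz : ∀ ρ, 3 ≤ ρ → f₀ ρ = 0 := fun ρ h => by rw [hf₀]; exact cut_far _ h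
  have hf0 : f₀ 0 = 0 := by rw [hf₀]; exact cut_zero _
  have hfF : ∀ ρ, f₀ ρ ≤ F := by
    intro ρ
    rw [hf₀]
    refine cut_le hF0 fun h0 h3 => max_le ?_ hF0
    rcases lt_or_ge ρ δ₀ with h | h
    · have h1 := hpos ρ h0 h
      have h2 : 0 ≤ ψ ρ := (mul_nonneg_iff_of_pos_left (by positivity)).1 h1
      linarith
    · have h1 := hF₁ ρ h h3
      have h2 := neg_abs_le (ψ ρ)
      have h4 := le_abs_self F₁
      linarith
  have hshort : ∀ K : ℝ, 0 ≤ K → ∃ A₀ : ℝ, 0 ≤ A₀ ∧ ∀ A, A₀ ≤ A → ∀ g : ℝ → ℝ, Measurable g →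
      (∀ ρ, 0 ≤ g ρ) → Short (fun ρ => cr ψ A ρ + cut g ρ) f₀ K := by
    intro K hK
    obtain ⟨A₀, hA₀, h⟩ := core_super H1 (K + 2 * (3375 * F)) (by positivity)
    refine ⟨A₀, hA₀, fun A hA g hg hg0 => ⟨(measurable_cr hm A).add (measurable_cut hg), hfm,
      fun ρ => add_nonneg (cr_nonneg ψ (hA₀.trans hA) ρ) (cut_nonneg hg0 ρ), hfn,
      fun ρ hρ => by rw [cr_far ψ A hρ, cut_far g hρ, add_zero], hfz, fun x => ?_⟩⟩
    have h1 := h A hA x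
    have h2 := quad_short_le hF0 hfF hfz x
    have h3 : quad (rad (cr ψ A)) x ≤ quad (rad fun ρ => cr ψ A ρ + cut g ρ) x :=
      quad_mono x fun i j => le_add_of_nonneg_right (cut_nonneg hg0 _)
    linarith
  -- the first superstability constant
  obtain ⟨A', hA', hS'⟩ := hshort 1 zero_le_one
  have hS1 := hS' A' le_rfl (fun _ => 0) measurable_const (fun _ => le_rfl)
  -- the strength of the attraction
  obtain ⟨M, hM⟩ : ∃ M, M = 1 + (1 + A' ^ 2 / 8 + c) / τ ^ 2 := ⟨_, rfl⟩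
  have hM1 : 1 ≤ M := by
    have : 0 ≤ (1 + A' ^ 2 / 8 + c) / τ ^ 2 := by positivity
    rw [hM]; linarith
  have hM0 : 0 < M := by linarith
  have hMi : 1 + A' ^ 2 / 8 + c < M * 2 ^ 19 * τ ^ 2 := by
    have e : M * τ ^ 2 = τ ^ 2 + (1 + A' ^ 2 / 8 + c) := by rw [hM]; field_simp
    have h1 : 0 < τ ^ 2 := by positivity
    have h2 : 0 < M * τ ^ 2 := by positivity
    nlinarith
  obtain ⟨κ, hκ⟩ : ∃ κ, κ = 16 * (M * 2 ^ 22) := ⟨_, rfl⟩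
  have hκ1 : 1 ≤ κ := by rw [hκ]; nlinarith
  have hκ0 : 0 < κ := by linarith
  obtain ⟨A₁, hA₁, hS⟩ := hshort (κ + 128 * M * (2 ^ 22 + 2)) (by positivity)
  obtain ⟨A, hA⟩ : ∃ A, A = max A₁ A' := ⟨_, rfl⟩
  have hAA₁ : A₁ ≤ A := by rw [hA]; exact le_max_left _ _
  have hAA' : A' ≤ A := by rw [hA]; exact le_max_right _ _
  have hA0 : 0 ≤ A := hA'.trans hAA'
  obtain ⟨C₀, hC₀⟩ : ∃ C₀, C₀ = 1 + (A / 2) ^ 2 / (2 * κ) + c := ⟨_, rfl⟩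
  obtain ⟨Kb, hKb⟩ : ∃ Kb, Kb = 315 * (1 + (100 * C₀ + A / 2) ^ 2 / κ) + 10 := ⟨_, rfl⟩
  -- the base scale
  obtain ⟨B, hBge⟩ := exists_nat_gt (max 4 (max (512 * Kb / τ ^ 2) (M * (2 ^ 22 + 1) / η)))
  have hB4r : (4 : ℝ) < B := lt_of_le_of_lt (le_max_left _ _) hBge
  have hB0 : (0 : ℝ) < B := by linarith
  have hB4 : 4 ≤ B := by exact_mod_cast hB4r.le
  have hB : 2 ≤ B := by omega
  have hBK : 512 * Kb < τ ^ 2 * B := by
    have := lt_of_le_of_lt ((le_max_left _ _).trans (le_max_right _ _)) hBge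
    rw [div_lt_iff₀ (by positivity)] at this
    linarith
  have hBη : M * ((2 ^ 22 + 1) / B) ≤ η := by
    have := lt_of_le_of_lt ((le_max_right _ _).trans (le_max_right _ _)) hBge
    rw [div_lt_iff₀ hη] at this
    rw [← mul_div_assoc, div_le_iff₀ hB0]
    linarith
  -- the tail
  obtain ⟨g, hg⟩ : ∃ g, g = gsum (rr3 B) (fun j => M * al3 B j) := ⟨_, rfl⟩
  have hcf : Coef (rr3 B) (fun j => M * al3 B j) := (coef3 hB).smul hM0.le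
  have hgc : Continuous g := by rw [hg]; exact continuous_gsum hcf
  have hg0 : ∀ ρ, 0 ≤ g ρ := by rw [hg]; exact gsum_nonneg hcf
  have hgη : ∀ ρ, g ρ ≤ η := by
    intro ρ
    rw [hg, gsum_smul]
    exact (mul_le_mul_of_nonneg_left (gsum_small hB ρ) hM0.le).trans hBη
  obtain ⟨κ₀, hκ₀⟩ : ∃ κ₀ : ℝ → ℝ, κ₀ = fun ρ => cr ψ A ρ + cut g ρ := ⟨_, rfl⟩
  have hSh : Short κ₀ f₀ (κ + 128 * M * (2 ^ 22 + 2)) := by
    rw [hκ₀]; exact hS A hAA₁ g hgc.measurable hg0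
  have hk0 : κ₀ 0 = A := by rw [hκ₀]; simp only; rw [cr_zero, cut_zero, add_zero]
  have hkE : ∀ ρ, δ ≤ ρ → κ₀ ρ ≤ E := by
    intro ρ hρ
    have h1 : cr ψ A ρ = cut (fun ρ => max (ψ ρ) 0) ρ := by
      unfold cr cut; rw [if_neg (by linarith), if_neg (by linarith)]
    have h2 : cut (fun ρ => max (ψ ρ) 0) ρ ≤ |E₁| :=
      cut_le (abs_nonneg _) fun _ h3 => max_le
        (((le_abs_self _).trans (hE₁ ρ hρ h3)).trans (le_abs_self _)) (abs_nonneg _)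
    have h3 : cut g ρ ≤ η := cut_le hη.le fun _ _ => hgη ρ
    rw [hκ₀, hE]; simp only; rw [h1]; linarith
  refine ⟨fun ρ => κ₀ ρ - (f₀ ρ + g ρ), g, hSh.m1.sub (hfm.add hgc.measurable), hgc,
    fun ρ => ⟨hg0 ρ, hgη ρ⟩, ?_, ?_, ?_, ?_⟩
  · refine ⟨M * (2 ^ 22 * (2 * rr3 B 0) ^ dexp + 16), ?_, fun ρ hρ => ?_⟩
    · have hr : 0 < rr3 B 0 := by linarith [(coef3 hB).rad2 0]
      positivity
    · rw [hg, gsum_smul, mul_assoc]
      exact mul_le_mul_of_nonneg_left (gsum3_decay hB hρ) hM0.le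
  · intro ρ hρ
    rw [hκ₀, hf₀]
    simp only [cr, cut, if_neg (not_le.mpr hρ)]
    rcases le_total 0 (ψ ρ) with h | h
    · rw [max_eq_left h, max_eq_right (by linarith)]; ring
    · rw [max_eq_right h, max_eq_left (by linarith)]; ring
  · refine stable_of_nice hκ0.le ?_
    rw [hg]
    exact nice_Wi hB hM1 hSh
  · intro β hβ
    have hj := beta_jump (κ₁ := fun ρ => cr ψ A' ρ + cut (fun _ => 0) ρ) hB4 hM1 hSh hκ hS1
      (fun ρ => by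
        have h2 := cr_mono ψ hAA' ρ
        have h3 := cut_nonneg hg0 ρ
        have h4 : cut (fun _ => (0 : ℝ)) ρ = 0 := by unfold cut; simp
        rw [hκ₀, h4]
        simp only
        linarith) hk0 (by rw [cr_zero, cut_zero, add_zero]) hf0 hA0 hn1 hτ0 hτ1 hE0 hc₁
      hkE htr hc hMi hC₀ hKb hBK hβ
    rw [← hg] at hj
    refine densityJump_mono hj hτ2 (hnb.trans ?_)
    exact mul_le_mul_of_nonneg_left (by linarith) hn0.le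

end Vale.Agent.N171
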